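import Vale.Agent.P243.Coplanar

/-!
# A measure on a spheroid that sees every line in the same way

The density `1/√(1 - ‖x‖²)` on the unit ball has integral `π` on every line through the ball and
total mass `π²`; transported to a spheroid it bounds the base areas of every covering from below.
-/

namespace Vale.Agent.P243

open MeasureTheory Set Real
open scoped RealInnerProductSpace ENNReal

/-- The density on the unit ball (it vanishes off the open ball). -/
noncomputable def ballDens (x : R3) : ℝ≥0∞ := ENNReal.ofReal (√(1 - ‖x‖ ^ 2))⁻¹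

theorem measurable_ballDens : Measurable ballDens := by
  unfold ballDens; fun_prop

theorem lintegral_arcsin {c : ℝ} (hc : 0 < c) :
    ∫⁻ t : ℝ, ENNReal.ofReal (√(c - t ^ 2))⁻¹ = ENNReal.ofReal π := by
  have hs : 0 < √c := sqrt_pos.2 hc
  have hsupp : Function.support (fun t : ℝ => ENNReal.ofReal (√(c - t ^ 2))⁻¹)
      ⊆ Ioo (-√c) √c := by
    intro t ht
    by_contra h
    apply ht
    have : c ≤ t ^ 2 := by
      rw [mem_Ioo, ← abs_lt, not_lt] at h
      nlinarith [sq_sqrt hc.le, sq_abs t]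
    simp [sqrt_eq_zero_of_nonpos (by linarith : c - t ^ 2 ≤ 0)]
  rw [← setLIntegral_eq_of_support_subset hsupp]
  have himg : Ioo (-√c) √c = (fun θ => √c * sin θ) '' Ioo (-(π / 2)) (π / 2) := by
    ext t
    constructor
    · intro ht
      have h1 : -1 < t / √c := by rw [lt_div_iff₀ hs]; linarith [ht.1]
      have h2 : t / √c < 1 := by rw [div_lt_iff₀ hs]; linarith [ht.2]
      refine ⟨arcsin (t / √c), ⟨neg_pi_div_two_lt_arcsin.2 h1, arcsin_lt_pi_div_two.2 h2⟩, ?_⟩
      rw [show (fun θ => √c * sin θ) (arcsin (t / √c)) = √c * sin (arcsin (t / √c)) from rfl,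
        sin_arcsin h1.le h2.le, mul_div_cancel₀ t hs.ne']
    · rintro ⟨θ, hθ, rfl⟩
      have hc' := cos_pos_of_mem_Ioo hθ
      have : |sin θ| < 1 := by
        rw [← sq_lt_one_iff_abs_lt_one]
        nlinarith [sin_sq_add_cos_sq θ]
      obtain ⟨h1, h2⟩ := abs_lt.1 this
      constructor <;> nlinarith
  have hinj : InjOn (fun θ => √c * sin θ) (Ioo (-(π / 2)) (π / 2)) := fun x hx y hy hxy =>
    injOn_sin (Ioo_subset_Icc_self hx) (Ioo_subset_Icc_self hy) (mul_left_cancel₀ hs.ne' hxy)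
  rw [himg, lintegral_image_eq_lintegral_abs_deriv_mul measurableSet_Ioo
    (fun θ _ => ((hasDerivAt_sin θ).const_mul (√c)).hasDerivWithinAt) hinj]
  have hone : ∀ θ ∈ Ioo (-(π / 2)) (π / 2), ENNReal.ofReal |√c * cos θ| *
      ENNReal.ofReal (√(c - (√c * sin θ) ^ 2))⁻¹ = 1 := by
    intro θ hθ
    have hc' := cos_pos_of_mem_Ioo hθ
    have e : c - (√c * sin θ) ^ 2 = (√c * cos θ) ^ 2 := by
      rw [mul_pow, mul_pow, sq_sqrt hc.le, cos_sq']; ring
    rw [e, sqrt_sq (by positivity), ← ENNReal.ofReal_mul (abs_nonneg _),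
      abs_of_pos (by positivity), mul_inv_cancel₀ (by positivity), ENNReal.ofReal_one]
  rw [setLIntegral_congr_fun measurableSet_Ioo hone, setLIntegral_one, Real.volume_Ioo]
  ring_nf

/-- The density along a unit line. -/
theorem lintegral_line_eq (p w : R3) (hw : ‖w‖ = 1) :
    ∫⁻ s : ℝ, ballDens (p + s • w) =
      if 0 < 1 - ‖p‖ ^ 2 + ⟪p, w⟫ ^ 2 then ENNReal.ofReal π else 0 := by
  have h : ∀ s : ℝ, ballDens (p + s • w)
      = (fun t : ℝ => ENNReal.ofReal (√(1 - ‖p‖ ^ 2 + ⟪p, w⟫ ^ 2 - t ^ 2))⁻¹) (s + ⟪p, w⟫) := by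
    intro s
    simp only [ballDens]
    congr 3
    rw [norm_add_sq_real, real_inner_smul_right, norm_smul, hw, mul_one, Real.norm_eq_abs, sq_abs]
    ring
  simp only [h]
  rw [lintegral_add_right_eq_self
    (fun t : ℝ => ENNReal.ofReal (√(1 - ‖p‖ ^ 2 + ⟪p, w⟫ ^ 2 - t ^ 2))⁻¹)]
  split_ifs with hc
  · exact lintegral_arcsin hc
  · have : ∀ t : ℝ, ENNReal.ofReal (√(1 - ‖p‖ ^ 2 + ⟪p, w⟫ ^ 2 - t ^ 2))⁻¹ = 0 := fun t => by
      simp [sqrt_eq_zero_of_nonpos
        (show 1 - ‖p‖ ^ 2 + ⟪p, w⟫ ^ 2 - t ^ 2 ≤ 0 by nlinarith [sq_nonneg t])]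
    simp only [this, lintegral_zero]

theorem lintegral_line_le (p v : R3) (hv : v ≠ 0) :
    ∫⁻ s : ℝ, ballDens (p + s • v) ≤ ENNReal.ofReal (π / ‖v‖) := by
  have hn : 0 < ‖v‖ := norm_pos_iff.2 hv
  have hw : ‖‖v‖⁻¹ • v‖ = 1 := norm_smul_inv_norm hv
  have hm : Measurable fun s : ℝ => ballDens (p + s • (‖v‖⁻¹ • v)) :=
    measurable_ballDens.comp (by fun_prop)
  have h1 : ∫⁻ s : ℝ, ballDens (p + s • v)
      = ENNReal.ofReal ‖v‖⁻¹ * ∫⁻ s : ℝ, ballDens (p + s • (‖v‖⁻¹ • v)) := by
    have := lintegral_map (μ := volume) hm (measurable_const_mul ‖v‖)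
    rw [Real.map_volume_mul_left hn.ne', lintegral_smul_measure, smul_eq_mul,
      abs_of_pos (inv_pos.2 hn)] at this
    rw [this]
    refine lintegral_congr fun s => ?_
    rw [smul_smul, mul_comm ‖v‖ s, mul_assoc, mul_inv_cancel₀ hn.ne', mul_one]
  rw [h1, lintegral_line_eq _ _ hw]
  split_ifs
  · rw [← ENNReal.ofReal_mul (inv_nonneg.2 hn.le), div_eq_inv_mul]
  · simp

theorem exists_frame {n : R3} (hn : ‖n‖ = 1) : ∃ w u : R3, Frame n w u := by
  obtain ⟨w, hw, hnw, -⟩ := exists_third (a := n) (b := n)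
  obtain ⟨u, hu, hnu, hwu⟩ := exists_third (a := n) (b := w)
  exact ⟨w, u, hn, hw, hu, hnw, hnu, hwu⟩

/-- Lebesgue measure in frame coordinates. -/
theorem Frame.lintegral_eq {ν w u : R3} (F : Frame ν w u) {f : R3 → ℝ≥0∞} (hf : Measurable f) :
    ∫⁻ x, f x = ∫⁻ q : ℝ × ℝ, ∫⁻ t : ℝ, f (place ν w q + t • u) := by
  obtain ⟨b, h0, h1, h2⟩ := F.basis
  let Ψ : R3 ≃ᵐ ℝ × (ℝ × ℝ) :=
    ((b.measurableEquiv.trans (MeasurableEquiv.toLp 2 _).symm).trans
      (MeasurableEquiv.piFinSuccAbove (fun _ => ℝ) 2)).trans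
      ((MeasurableEquiv.refl ℝ).prodCongr MeasurableEquiv.finTwoArrow)
  have hΨ : MeasurePreserving Ψ volume volume :=
    ((b.measurePreserving_measurableEquiv.trans (PiLp.volume_preserving_ofLp (Fin 3))).trans
      (volume_preserving_piFinSuccAbove (fun _ => ℝ) 2)).trans
      ((MeasurePreserving.id volume).prod (volume_preserving_finTwoArrow ℝ))
  have hval : ∀ x, Ψ x = (⟪x, u⟫, (⟪x, ν⟫, ⟪x, w⟫)) := by
    intro x
    have key : ∀ i, b.repr x i = ⟪x, b i⟫ := fun i => by
      rw [b.repr_apply_apply, real_inner_comm]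
    have k0 := key 0
    have k1 := key 1
    have k2 := key 2
    rw [h0] at k0
    rw [h1] at k1
    rw [h2] at k2
    exact Prod.ext k2 (Prod.ext k0 k1)
  have hG : Measurable fun z : ℝ × (ℝ × ℝ) => f (place ν w z.2 + z.1 • u) := by
    refine hf.comp ?_
    unfold place; fun_prop
  have e : ∫⁻ x, f x = ∫⁻ z : ℝ × (ℝ × ℝ), f (place ν w z.2 + z.1 • u) := by
    rw [← hΨ.lintegral_comp hG]
    refine lintegral_congr fun x => congrArg f ?_
    rw [hval, ← F.flatten_eq, flatten, sub_add_cancel]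
  rw [e, Measure.volume_eq_prod, lintegral_prod_symm _ hG.aemeasurable]

theorem volume_disc : volume {q : ℝ × ℝ | q.1 ^ 2 + q.2 ^ 2 < 1} = ENNReal.ofReal π := by
  have h : {q : ℝ × ℝ | q.1 ^ 2 + q.2 ^ 2 < 1}
      = Complex.measurableEquivRealProd.symm ⁻¹' Metric.ball (0 : ℂ) 1 := by
    ext q
    rw [mem_preimage, mem_ball_zero_iff, ← sq_lt_one_iff₀ (norm_nonneg _), Complex.sq_norm,
      Complex.normSq_apply, mem_setOf_eq]
    simp [Complex.measurableEquivRealProd, sq]
  rw [h, (Complex.volume_preserving_equiv_real_prod.symm _).measure_preimage_equiv,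
    Complex.volume_ball]
  simp [ENNReal.ofReal, NNReal.pi, Real.toNNReal_of_nonneg Real.pi_nonneg]
  rfl

theorem lintegral_ballDens : ∫⁻ x, ballDens x = ENNReal.ofReal (π ^ 2) := by
  obtain ⟨w, u, F⟩ := exists_frame (n := EuclideanSpace.single (0 : Fin 3) (1 : ℝ)) (by simp)
  set ν : R3 := EuclideanSpace.single (0 : Fin 3) (1 : ℝ)
  rw [F.lintegral_eq measurable_ballDens]
  have hinner : ∀ q : ℝ × ℝ, ∫⁻ t : ℝ, ballDens (place ν w q + t • u)
      = {q : ℝ × ℝ | q.1 ^ 2 + q.2 ^ 2 < 1}.indicator (fun _ => ENNReal.ofReal π) q := by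
    intro q
    have h0 : ⟪place ν w q, u⟫ = 0 := by
      simp [place, inner_add_left, real_inner_smul_left, F.hνu, F.hwu]
    have h1 : ‖place ν w q‖ ^ 2 = q.1 ^ 2 + q.2 ^ 2 := by
      rw [place, norm_add_sq_real, real_inner_smul_left, real_inner_smul_right, F.hνw, norm_smul,
        norm_smul, F.hν, F.hw, mul_one, mul_one, Real.norm_eq_abs, Real.norm_eq_abs, sq_abs,
        sq_abs]
      ring
    rw [lintegral_line_eq _ _ F.hu, h0, h1, indicator_apply]
    simp
  have hms : MeasurableSet {q : ℝ × ℝ | q.1 ^ 2 + q.2 ^ 2 < 1} :=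
    measurableSet_lt (by fun_prop) measurable_const
  simp only [hinner]
  rw [lintegral_indicator_const hms, volume_disc, ← ENNReal.ofReal_mul Real.pi_nonneg, sq]

/-- The linear map taking the unit ball to the spheroid with half-axes `a` along `n`, `b` across. -/
noncomputable def sph (n : R3) (a b : ℝ) : R3 →ₗ[ℝ] R3 where
  toFun x := b • x + ((a - b) * ⟪n, x⟫) • n
  map_add' x y := by rw [inner_add_right]; module
  map_smul' c x := by rw [real_inner_smul_right, RingHom.id_apply]; module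

theorem sph_apply (n : R3) (a b : ℝ) (x : R3) :
    sph n a b x = b • x + ((a - b) * ⟪n, x⟫) • n := rfl

theorem inner_sph {n : R3} (hn : ‖n‖ = 1) (a b : ℝ) (x : R3) : ⟪n, sph n a b x⟫ = a * ⟪n, x⟫ := by
  rw [sph_apply, inner_add_right, real_inner_smul_right, real_inner_smul_right,
    real_inner_self_eq_norm_sq, hn]
  ring

theorem norm_sph_sq {n : R3} (hn : ‖n‖ = 1) (a b : ℝ) (x : R3) :
    ‖sph n a b x‖ ^ 2 = b ^ 2 * ‖x‖ ^ 2 - (b ^ 2 - a ^ 2) * ⟪n, x⟫ ^ 2 := by
  rw [sph_apply, norm_add_sq_real, norm_smul, norm_smul, real_inner_smul_left,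
    real_inner_smul_right, real_inner_comm n x, hn, mul_pow, Real.norm_eq_abs, Real.norm_eq_abs,
    sq_abs, mul_one, sq_abs]
  ring

theorem sph_inner_symm (n : R3) (a b : ℝ) (x y : R3) :
    ⟪sph n a b x, y⟫ = ⟪x, sph n a b y⟫ := by
  simp only [sph_apply, inner_add_left, inner_add_right, real_inner_smul_left,
    real_inner_smul_right, real_inner_comm x n]
  ring

theorem sph_sph {n : R3} (hn : ‖n‖ = 1) {a b : ℝ} (ha : a ≠ 0) (hb : b ≠ 0) (x : R3) :
    sph n a b (sph n a⁻¹ b⁻¹ x) = x := by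
  rw [sph_apply n a b, inner_sph hn, sph_apply, smul_add, smul_smul, smul_smul, add_assoc,
    ← add_smul, mul_inv_cancel₀ hb, one_smul]
  have : b * ((a⁻¹ - b⁻¹) * ⟪n, x⟫) + (a - b) * (a⁻¹ * ⟪n, x⟫) = 0 := by field_simp; ring
  rw [this, zero_smul, add_zero]

theorem det_sph {n : R3} (hn : ‖n‖ = 1) (a b : ℝ) : LinearMap.det (sph n a b) = a * b ^ 2 := by
  obtain ⟨w, u, F⟩ := exists_frame hn
  obtain ⟨B, h0, h1, h2⟩ := F.basis
  rw [← LinearMap.det_toMatrix B.toBasis]
  have key : LinearMap.toMatrix B.toBasis B.toBasis (sph n a b) = Matrix.diagonal ![a, b, b] := by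
    ext i j
    have e : sph n a b (B j) = (![a, b, b] j) • B j := by
      fin_cases j
      · simp only [Fin.zero_eta, h0, sph_apply, real_inner_self_eq_norm_sq, hn]
        rw [← add_smul]; norm_num
      · simp [sph_apply, h1, F.hνw]
      · simp [sph_apply, h2, F.hνu]
    rw [LinearMap.toMatrix_apply, OrthonormalBasis.coe_toBasis, e, map_smul,
      ← OrthonormalBasis.coe_toBasis, Module.Basis.repr_self, Matrix.diagonal_apply]
    simp [Finsupp.single_apply, eq_comm]
    split_ifs with h <;> simp_all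
  rw [key, Matrix.det_diagonal, Fin.prod_univ_three]
  simp; ring

/-- **A covering of a body containing a spheroid has total base area at least `π a b`.** -/
theorem area_ge_spheroid {K : Set R3} (C : Covering K) {n : R3} (hn : ‖n‖ = 1) {a b : ℝ}
    (ha : 0 < a) (hab : a ≤ b) (hK : ∀ x : R3, ‖x‖ ≤ 1 → sph n a b x ∈ K) :
    ENNReal.ofReal (π * (a * b)) ≤ C.area := by
  have hb : 0 < b := ha.trans_le hab
  set S := sph n a⁻¹ b⁻¹ with hS
  have hSm : Measurable S := S.continuous_of_finiteDimensional.measurable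
  have hSb : ∀ v : R3, ‖v‖ / b ≤ ‖S v‖ := by
    intro v
    refine (pow_le_pow_iff_left₀ (by positivity) (norm_nonneg _) two_ne_zero).1 ?_
    rw [hS, norm_sph_sq hn, div_pow, inv_pow, inv_pow, div_eq_inv_mul]
    have h1 : 0 ≤ (a ^ 2)⁻¹ - (b ^ 2)⁻¹ :=
      sub_nonneg.2 (inv_anti₀ (pow_pos ha 2) (pow_le_pow_left₀ ha.le hab 2))
    nlinarith [mul_nonneg h1 (sq_nonneg ⟪n, v⟫)]
  have hdet : LinearMap.det S = a⁻¹ * b⁻¹ ^ 2 := det_sph hn _ _
  have hdet0 : LinearMap.det S ≠ 0 := by rw [hdet]; positivity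
  -- total mass
  have htot : ∫⁻ x, ballDens (S x) = ENNReal.ofReal (a * b ^ 2 * π ^ 2) := by
    rw [← lintegral_map measurable_ballDens hSm,
      Measure.map_linearMap_addHaar_eq_smul_addHaar _ hdet0, lintegral_smul_measure,
      lintegral_ballDens, smul_eq_mul, ← ENNReal.ofReal_mul (abs_nonneg _), hdet]
    congr 1
    rw [abs_of_pos (by positivity)]
    field_simp
  -- each cylinder
  have hcyl : ∀ i, ∃ A : Set R3, MeasurableSet A ∧
      (∀ x, flatten (C.axis i) x ∈ C.base i → x ∈ A) ∧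
      ∫⁻ x, A.indicator (fun x => ballDens (S x)) x
        ≤ ENNReal.ofReal (π * b) * planeArea (C.axis i) (C.base i) := by
    intro i
    set u := C.axis i
    have hu : ‖u‖ = 1 := C.unit i
    obtain ⟨ν, hν, huν, -⟩ := exists_third (a := u) (b := u)
    obtain ⟨w, hw, huw, hνw⟩ := exists_third (a := u) (b := ν)
    have F : Frame ν w u := ⟨hν, hw, hu, hνw, by rw [real_inner_comm]; exact huν,
      by rw [real_inner_comm]; exact huw⟩
    set Q := toMeasurable volume (place ν w ⁻¹' C.base i) with hQ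
    have hQm : MeasurableSet Q := measurableSet_toMeasurable _ _
    have hco : Measurable fun x : R3 => ((⟪x, ν⟫, ⟪x, w⟫) : ℝ × ℝ) := by fun_prop
    refine ⟨(fun x => ((⟪x, ν⟫, ⟪x, w⟫) : ℝ × ℝ)) ⁻¹' Q, hco hQm, fun x hx => ?_, ?_⟩
    · refine subset_toMeasurable _ _ ?_
      rw [mem_preimage, ← F.flatten_eq]; exact hx
    rw [F.lintegral_eq (f := ((fun x => ((⟪x, ν⟫, ⟪x, w⟫) : ℝ × ℝ)) ⁻¹' Q).indicator
        (fun x => ballDens (S x))) ((measurable_ballDens.comp hSm).indicator (hco hQm)),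
      F.planeArea_eq,
      ← measure_toMeasurable, ← hQ, ← setLIntegral_const, ← lintegral_indicator hQm]
    refine lintegral_mono fun q => ?_
    by_cases hq : q ∈ Q
    · rw [indicator_of_mem hq]
      have hv : S u ≠ 0 := fun h => by
        have := hSb u
        rw [h, norm_zero, hu] at this
        exact absurd this (not_le.2 (by positivity))
      calc ∫⁻ t : ℝ, _ ≤ ∫⁻ t : ℝ, ballDens (S (place ν w q) + t • S u) := by
            refine lintegral_mono fun t => ?_
            refine (indicator_le_self _ _ _).trans_eq ?_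
            rw [map_add, map_smul]
        _ ≤ ENNReal.ofReal (π / ‖S u‖) := lintegral_line_le _ _ hv
        _ ≤ ENNReal.ofReal (π * b) := by
            refine ENNReal.ofReal_le_ofReal ?_
            have := hSb u
            rw [hu] at this
            rw [div_le_iff₀ (norm_pos_iff.2 hv)]
            have h1 : 1 ≤ b * ‖S u‖ := by rw [div_le_iff₀ hb] at this; linarith
            nlinarith [Real.pi_pos]
    · rw [indicator_of_notMem hq]
      refine le_of_eq (lintegral_eq_zero_of_ae_eq_zero ?_)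
      refine Filter.Eventually.of_forall fun t => indicator_of_notMem ?_ _
      intro hmem
      apply hq
      have h1 := F.inner_place q
      have e1 : ⟪place ν w q + t • u, ν⟫ = q.1 := by
        rw [inner_add_left, real_inner_smul_left, h1.1, huν, mul_zero, add_zero]
      have e2 : ⟪place ν w q + t • u, w⟫ = q.2 := by
        rw [inner_add_left, real_inner_smul_left, h1.2, huw, mul_zero, add_zero]
      rw [mem_preimage, e1, e2] at hmem
      exact hmem
  choose A hAm hAsub hA using hcyl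
  have hpt : ∀ x, ballDens (S x) ≤ ∑ i, (A i).indicator (fun x => ballDens (S x)) x := by
    intro x
    by_cases h0 : ballDens (S x) = 0
    · rw [h0]; exact bot_le
    have hlt : ‖S x‖ ≤ 1 := by
      by_contra hc
      refine h0 ?_
      simp [ballDens, sqrt_eq_zero_of_nonpos (show 1 - ‖S x‖ ^ 2 ≤ 0 by nlinarith [not_le.1 hc])]
    have hxK : x ∈ K := by
      have := hK _ hlt
      rwa [hS, sph_sph hn ha.ne' hb.ne'] at this
    obtain ⟨i, hi⟩ := C.covers x hxK
    refine le_trans ?_ (Finset.single_le_sum (fun k _ => zero_le) (Finset.mem_univ i))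
    rw [indicator_of_mem (hAsub i x hi)]
  have hmain : ENNReal.ofReal (a * b ^ 2 * π ^ 2) ≤ ENNReal.ofReal (π * b) * C.area := by
    rw [← htot, Covering.area, Finset.mul_sum]
    refine (lintegral_mono hpt).trans ?_
    rw [lintegral_finsetSum (f := fun i => (A i).indicator fun x => ballDens (S x)) _
      fun i _ => (measurable_ballDens.comp hSm).indicator (hAm i)]
    exact Finset.sum_le_sum fun i _ => hA i
  have hpb : ENNReal.ofReal (π * b) ≠ 0 := (ENNReal.ofReal_pos.2 (by positivity)).ne'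
  rw [show a * b ^ 2 * π ^ 2 = π * b * (π * (a * b)) by ring,
    ENNReal.ofReal_mul (by positivity)] at hmain
  exact (ENNReal.mul_le_mul_iff_right hpb ENNReal.ofReal_ne_top).1 hmain

end Vale.Agent.P243
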