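import Vale.Agent.P243.Sym.Spheroid

/-!
# Half-area bound for centrally symmetric bodies

Two contact normals of the best spheroid give a parallelogram containing a shadow of the body,
and the measure on the spheroid bounds every covering from below.
-/

namespace Vale.Agent.P243

open MeasureTheory Set Real
open scoped RealInnerProductSpace ENNReal

theorem flatten_add (u x y : R3) : flatten u (x + y) = flatten u x + flatten u y := by
  simp only [flatten, inner_add_left]
  module

theorem inner_flatten_self {u : R3} (hu : ‖u‖ = 1) (x : R3) : ⟪flatten u x, u⟫ = 0 := by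
  rw [flatten, inner_sub_left, real_inner_smul_left, real_inner_self_eq_norm_sq, hu]
  ring

theorem flatten_of_orth {u x : R3} (h : ⟪x, u⟫ = 0) : flatten u x = x := by
  rw [flatten, h, zero_smul, sub_zero]

theorem planeArea_translate {u : R3} {d : R3} (hd : ⟪d, u⟫ = 0) (B : Set R3) :
    planeArea u {z | z + d ∈ B} = planeArea u B := by
  rw [planeArea, planeArea]
  have : {x : R3 | flatten u x ∈ {z | z + d ∈ B} ∧ ⟪x, u⟫ ∈ Icc (0 : ℝ) 1}
      = (fun x => x + d) ⁻¹' {x : R3 | flatten u x ∈ B ∧ ⟪x, u⟫ ∈ Icc (0 : ℝ) 1} := by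
    ext x
    simp [flatten_add, flatten_of_orth hd, inner_add_left, hd]
  rw [this, measure_preimage_add_right]

/-- A body between two pairs of parallel planes has a shadow inside a parallelogram. -/
theorem minShadow_le_gram {K : Set R3} {y y' : R3} (hy : ∀ x ∈ K, |⟪y, x⟫| ≤ 1)
    (hy' : ∀ x ∈ K, |⟪y', x⟫| ≤ 1) (hG : 0 < ‖y‖ ^ 2 * ‖y'‖ ^ 2 - ⟪y, y'⟫ ^ 2) :
    minShadow K ≤ ENNReal.ofReal (4 / √(‖y‖ ^ 2 * ‖y'‖ ^ 2 - ⟪y, y'⟫ ^ 2)) := by
  have hy0 : y ≠ 0 := fun h => by simp [h] at hG
  have hL : 0 < ‖y‖ := norm_pos_iff.2 hy0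
  obtain ⟨u, hu, hyu, hy'u⟩ := exists_third (a := y) (b := y')
  obtain ⟨ν, hν'⟩ : ∃ ν : R3, ν = ‖y‖⁻¹ • y := ⟨_, rfl⟩
  have hν : ‖ν‖ = 1 := by rw [hν']; exact norm_smul_inv_norm hy0
  have hνu : ⟪ν, u⟫ = 0 := by rw [hν', real_inner_smul_left, hyu, mul_zero]
  obtain ⟨w, hw, hνw, huw⟩ := exists_third (a := ν) (b := u)
  have F : Frame ν w u := ⟨hν, hw, hu, hνw, hνu, by rw [real_inner_comm]; exact huw⟩
  have hye : y = ‖y‖ • ν := by rw [hν', smul_smul, mul_inv_cancel₀ hL.ne', one_smul]
  obtain ⟨c, hc⟩ : ∃ c, c = ⟪y', ν⟫ := ⟨_, rfl⟩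
  obtain ⟨d, hd⟩ : ∃ d, d = ⟪y', w⟫ := ⟨_, rfl⟩
  have hy'e : y' = c • ν + d • w := by
    rw [hc, hd]; exact (flatten_of_orth hy'u).symm.trans (F.flatten_eq y')
  have hG' : ‖y‖ ^ 2 * ‖y'‖ ^ 2 - ⟪y, y'⟫ ^ 2 = (‖y‖ * d) ^ 2 := by
    have h1 : ‖y'‖ ^ 2 = c ^ 2 + d ^ 2 := by
      rw [hy'e, norm_add_sq_real, real_inner_smul_left, real_inner_smul_right, hνw, norm_smul,
        norm_smul, hν, hw, mul_one, mul_one, Real.norm_eq_abs, Real.norm_eq_abs, sq_abs, sq_abs]
      ring
    have h2 : ⟪y, y'⟫ = ‖y‖ * c := by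
      conv_lhs => rw [hye]
      rw [real_inner_smul_left, real_inner_comm, hc]
    rw [h1, h2]; ring
  have hd0 : 0 < |d| := by
    refine abs_pos.2 fun h => ?_
    rw [hG', h] at hG
    simp at hG
  have hsqrt : √(‖y‖ ^ 2 * ‖y'‖ ^ 2 - ⟪y, y'⟫ ^ 2) = ‖y‖ * |d| := by
    rw [hG', sqrt_sq_eq_abs, abs_mul, abs_norm]
  set P : Set (ℝ × ℝ) := {q | |q.1| ≤ 1 / ‖y‖ ∧ |c * q.1 + d * q.2| ≤ 1} with hP
  have hPm : MeasurableSet P :=
    (measurableSet_le (f := fun q : ℝ × ℝ => |q.1|) (by fun_prop) measurable_const).inter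
      (measurableSet_le (f := fun q : ℝ × ℝ => |c * q.1 + d * q.2|) (by fun_prop) measurable_const)
  refine (iInf_le _ ⟨u, hu⟩).trans ?_
  show planeArea u (flatten u '' K) ≤ _
  rw [F.planeArea_eq]
  have hsub : place ν w ⁻¹' (flatten u '' K) ⊆ P := by
    rintro ⟨p, q⟩ ⟨x, hx, hxe⟩
    have e1 := F.inner_place (p, q)
    have e2 := F.inner_place (⟪x, ν⟫, ⟪x, w⟫)
    rw [← hxe, F.flatten_eq, e2.1, e2.2] at e1
    obtain ⟨e1, e3⟩ := e1
    simp only at e1 e3 ⊢
    refine ⟨?_, ?_⟩
    · have h := hy x hx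
      rw [hye, real_inner_smul_left, real_inner_comm, e1, abs_mul, abs_norm] at h
      rw [le_div_iff₀ hL, mul_comm]; exact h
    · have h := hy' x hx
      rw [hy'e, inner_add_left, real_inner_smul_left, real_inner_smul_left, real_inner_comm x ν,
        real_inner_comm x w, e1, e3] at h
      exact h
  refine (measure_mono hsub).trans ?_
  rw [Measure.volume_eq_prod, Measure.prod_apply hPm, hsqrt]
  calc ∫⁻ p, volume (Prod.mk p ⁻¹' P)
      ≤ ∫⁻ p, (Icc (-(1 / ‖y‖)) (1 / ‖y‖)).indicator (fun _ => ENNReal.ofReal (2 / |d|)) p := by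
        refine lintegral_mono fun p => ?_
        by_cases hp : p ∈ Icc (-(1 / ‖y‖)) (1 / ‖y‖)
        · rw [indicator_of_mem hp]
          refine (measure_mono (t := Metric.closedBall (-(c * p / d)) (1 / |d|)) ?_).trans ?_
          · rintro q ⟨-, hq⟩
            have h0 : d ≠ 0 := abs_pos.1 hd0
            simp only at hq
            rw [Metric.mem_closedBall, Real.dist_eq, le_div_iff₀ hd0, ← abs_mul]
            refine le_trans (le_of_eq (congrArg abs ?_)) hq
            rw [sub_neg_eq_add, add_mul, div_mul_cancel₀ _ h0]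
            ring
          · rw [Real.volume_closedBall]
            exact le_of_eq (congrArg _ (by ring))
        · rw [show Prod.mk p ⁻¹' P = ∅ from ?_, measure_empty]
          · exact bot_le
          · ext q
            simp only [hP, mem_preimage, mem_setOf_eq, mem_empty_iff_false, iff_false, not_and]
            exact fun hh => absurd (abs_le.1 hh) hp
    _ = ENNReal.ofReal (4 / (‖y‖ * |d|)) := by
        rw [lintegral_indicator_const measurableSet_Icc, Real.volume_Icc,
          ← ENNReal.ofReal_mul (by positivity)]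
        congr 1
        field_simp
        ring

/-- The bound for bodies symmetric about the origin. -/
theorem symmetric_area_origin {K : Set R3} (hc : IsCompact K) (hconv : Convex ℝ K)
    (hint : (interior K).Nonempty) (hsymm : ∀ x ∈ K, -x ∈ K) (C : Covering K) :
    ENNReal.ofReal (π * √2 / 8) * minShadow K ≤ C.area := by
  obtain ⟨n, a, b, hn, ha, hab, hmem, y, y', hy, hy', hg⟩ :=
    exists_spheroid_contacts hc hconv hsymm hint
  have hb : 0 < b := ha.trans_le hab
  set G := ‖y‖ ^ 2 * ‖y'‖ ^ 2 - ⟪y, y'⟫ ^ 2 with hG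
  have hab0 : 0 < a * b := mul_pos ha hb
  have hG0 : 0 < G := by
    by_contra h
    have := mul_nonpos_of_nonneg_of_nonpos (show 0 ≤ 2 * (a * b) ^ 2 by positivity) (not_lt.1 h)
    linarith
  calc ENNReal.ofReal (π * √2 / 8) * minShadow K
      ≤ ENNReal.ofReal (π * √2 / 8) * ENNReal.ofReal (4 / √G) :=
        mul_le_mul' le_rfl (minShadow_le_gram hy hy' hG0)
    _ ≤ ENNReal.ofReal (π * (a * b)) := by
        rw [← ENNReal.ofReal_mul (by positivity)]
        refine ENNReal.ofReal_le_ofReal ?_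
        have hs2 : √2 * √2 = 2 := mul_self_sqrt (by norm_num)
        have hsG : √2 ≤ 2 * (a * b) * √G := by
          rw [show 2 * (a * b) * √G = √((2 * (a * b)) ^ 2 * G) by
            rw [sqrt_mul (sq_nonneg _), sqrt_sq (by positivity)]]
          exact sqrt_le_sqrt (by nlinarith)
        rw [mul_div_assoc', div_le_iff₀ (sqrt_pos.2 hG0)]
        nlinarith [Real.pi_pos]
    _ ≤ C.area := area_ge_spheroid C hn ha hab hmem

/-- The bound for bodies with a centre of symmetry `c`. -/
theorem symmetric_area {K : Set R3} (hK : IsConvexBody K) {c : R3}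
    (hsymm : ∀ x ∈ K, 2 • c - x ∈ K) (C : Covering K) :
    ENNReal.ofReal (π * √2 / 8) * minShadow K ≤ C.area := by
  obtain ⟨hc, hconv, hint⟩ := hK
  set K₀ := (fun x => x + c) ⁻¹' K with hK₀
  have hc₀ : IsCompact K₀ := (Homeomorph.addRight c).isCompact_preimage.2 hc
  have hconv₀ : Convex ℝ K₀ := hconv.translate_preimage_left c
  have hint₀ : (interior K₀).Nonempty := by
    obtain ⟨x, hx⟩ := hint
    refine ⟨x - c, preimage_interior_subset_interior_preimage (by fun_prop) ?_⟩
    simpa using hx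
  have hsymm₀ : ∀ x ∈ K₀, -x ∈ K₀ := fun x hx => by
    have := hsymm _ hx
    rw [two_nsmul, show c + c - (x + c) = -x + c by abel] at this
    exact this
  let C₀ : Covering K₀ :=
    { m := C.m
      axis := C.axis
      base := fun i => {z | z + flatten (C.axis i) c ∈ C.base i}
      unit := C.unit
      covers := fun x hx => by
        obtain ⟨i, hi⟩ := C.covers _ hx
        rw [flatten_add] at hi
        exact ⟨i, hi⟩ }
  have harea : C₀.area = C.area := Finset.sum_congr rfl fun i _ =>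
    planeArea_translate (inner_flatten_self (C.unit i) c) _
  have hshadow : minShadow K₀ = minShadow K := by
    refine iInf_congr fun v => ?_
    have : flatten v.1 '' K₀ = {z | z + flatten v.1 c ∈ flatten v.1 '' K} := by
      ext z
      constructor
      · rintro ⟨x, hx, rfl⟩
        exact ⟨x + c, hx, flatten_add _ _ _⟩
      · rintro ⟨x, hx, hxz⟩
        refine ⟨x - c, show x - c + c ∈ K by simpa using hx, ?_⟩
        have := flatten_add v.1 (x - c) c
        rw [sub_add_cancel, hxz] at this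
        exact (add_right_cancel this).symm
    rw [this, planeArea_translate (inner_flatten_self v.2 c)]
  rw [← harea, ← hshadow]
  exact symmetric_area_origin hc₀ hconv₀ hint₀ hsymm₀ C₀

end Vale.Agent.P243
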