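import Vale.Agent.P243.Sym.BallMeasure

/-!
# The best spheroid inside a symmetric convex body

A spheroid with half-axes `a ≤ b` (symmetry axis `n`) inside a symmetric convex body that maximises
`a * b` has two contact normals `y`, `y'` with Gram determinant at least `1 / (2 (a b)²)`.
-/

namespace Vale.Agent.P243

open MeasureTheory Set Real Filter Topology
open scoped RealInnerProductSpace

/-- The polar of a set. -/
def polarSet (K : Set R3) : Set R3 := {y | ∀ x ∈ K, ⟪y, x⟫ ≤ 1}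

theorem isClosed_polarSet (K : Set R3) : IsClosed (polarSet K) := by
  simp only [polarSet, setOf_forall]
  exact isClosed_biInter fun x _ =>
    isClosed_le (continuous_id.inner continuous_const) continuous_const

theorem zero_mem_interior {K : Set R3} (hconv : Convex ℝ K) (hsymm : ∀ x ∈ K, -x ∈ K)
    (hint : (interior K).Nonempty) : (0 : R3) ∈ interior K := by
  obtain ⟨z, hz⟩ := hint
  have h : -z ∈ K := hsymm z (interior_subset hz)
  have := hconv.combo_interior_self_mem_interior hz h (a := 1 / 2) (b := 1 / 2) (by norm_num)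
    (by norm_num) (by norm_num)
  simpa using this

theorem isCompact_polarSet {K : Set R3} (h0 : (0 : R3) ∈ interior K) :
    IsCompact (polarSet K) := by
  obtain ⟨r, hr, hball⟩ := Metric.isOpen_iff.1 isOpen_interior 0 h0
  refine Metric.isCompact_of_isClosed_isBounded (isClosed_polarSet K)
    ((Metric.isBounded_closedBall (x := (0 : R3)) (r := 2 / r)).subset fun y hy => ?_)
  rw [mem_closedBall_zero_iff]
  rcases eq_or_ne y 0 with rfl | hy0
  · rw [norm_zero]; positivity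
  have hn : 0 < ‖y‖ := norm_pos_iff.2 hy0
  have hx : (r / 2 / ‖y‖) • y ∈ K := by
    refine interior_subset (hball ?_)
    rw [mem_ball_zero_iff, norm_smul, Real.norm_eq_abs, abs_of_pos (by positivity),
      div_mul_cancel₀ _ hn.ne']
    linarith
  have h := hy _ hx
  rw [real_inner_smul_right, real_inner_self_eq_norm_sq] at h
  rw [le_div_iff₀ hr]
  have : r / 2 / ‖y‖ * ‖y‖ ^ 2 = r / 2 * ‖y‖ := by field_simp
  linarith

theorem exists_polar_sep {K : Set R3} (hc : IsCompact K) (hconv : Convex ℝ K) (h0 : (0 : R3) ∈ K)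
    {x : R3} (hx : x ∉ K) : ∃ y ∈ polarSet K, 1 < ⟪y, x⟫ := by
  obtain ⟨f, u, hfu, hux⟩ := geometric_hahn_banach_closed_point hconv hc.isClosed hx
  have hu : 0 < u := by simpa using hfu 0 h0
  set z := (InnerProductSpace.toDual ℝ R3).symm f with hz
  have hzz : ∀ v, ⟪z, v⟫ = f v := fun v => InnerProductSpace.toDual_symm_apply
  refine ⟨u⁻¹ • z, fun v hv => ?_, ?_⟩
  · rw [real_inner_smul_left, hzz, inv_mul_le_iff₀ hu, mul_one]
    exact (hfu v hv).le
  · rw [real_inner_smul_left, hzz, lt_inv_mul_iff₀ hu, mul_one]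
    exact hux

theorem norm_sph_polar {K : Set R3} {n : R3} {a b : ℝ}
    (hK : ∀ x : R3, ‖x‖ ≤ 1 → sph n a b x ∈ K) {y : R3} (hy : y ∈ polarSet K) :
    ‖sph n a b y‖ ≤ 1 := by
  set v := sph n a b y with hv
  rcases eq_or_ne v 0 with h | h
  · rw [h, norm_zero]; exact zero_le_one
  have h1 := hy _ (hK (‖v‖⁻¹ • v) (le_of_eq (norm_smul_inv_norm h)))
  rw [← sph_inner_symm, ← hv, real_inner_smul_right, real_inner_self_eq_norm_sq, sq,
    ← mul_assoc, inv_mul_cancel₀ (norm_ne_zero_iff.2 h), one_mul] at h1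
  exact h1

theorem sph_mem_of_polar {K : Set R3} (hc : IsCompact K) (hconv : Convex ℝ K) (h0 : (0 : R3) ∈ K)
    {n : R3} {a b : ℝ} (h : ∀ y ∈ polarSet K, ‖sph n a b y‖ ≤ 1) {x : R3} (hx : ‖x‖ ≤ 1) :
    sph n a b x ∈ K := by
  by_contra hxK
  obtain ⟨y, hy, hyx⟩ := exists_polar_sep hc hconv h0 hxK
  rw [← sph_inner_symm] at hyx
  have := (real_inner_le_norm (sph n a b y) x).trans
    (mul_le_one₀ (h y hy) (norm_nonneg _) hx)
  linarith

/-- The touching functions of the spheroid. -/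
noncomputable def phi (n : R3) (a b : ℝ) (y : R3) : ℝ :=
  b ^ 2 * ‖y‖ ^ 2 - (b ^ 2 - a ^ 2) * ⟪n, y⟫ ^ 2 - 1

theorem phi_eq {n : R3} (hn : ‖n‖ = 1) (a b : ℝ) (y : R3) :
    phi n a b y = ‖sph n a b y‖ ^ 2 - 1 := by
  rw [phi, norm_sph_sq hn]

/-- The spheroid `(n, a, b)` lies in `K` and has the largest `a * b` among such spheroids. -/
structure Best (K : Set R3) (n : R3) (a b : ℝ) : Prop where
  unit : ‖n‖ = 1
  pos : 0 < a
  le : a ≤ b
  mem : ∀ x : R3, ‖x‖ ≤ 1 → sph n a b x ∈ K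
  opt : ∀ n' a' b', ‖n'‖ = 1 → 0 ≤ a' → a' ≤ b' → (∀ x : R3, ‖x‖ ≤ 1 → sph n' a' b' x ∈ K) →
    a' * b' ≤ a * b

theorem Best.phi_nonpos {K : Set R3} {n : R3} {a b : ℝ} (B : Best K n a b) {y : R3}
    (hy : y ∈ polarSet K) : phi n a b y ≤ 0 := by
  rw [phi_eq B.unit]
  nlinarith [norm_sph_polar B.mem hy, norm_nonneg (sph n a b y)]

theorem exists_best {K : Set R3} (hc : IsCompact K) (h0 : (0 : R3) ∈ interior K) :
    ∃ n a b, Best K n a b := by
  obtain ⟨R, hR⟩ := hc.isBounded.exists_norm_le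
  obtain ⟨r, hr, hball⟩ := Metric.isOpen_iff.1 isOpen_interior 0 h0
  let F : Set (R3 × ℝ × ℝ) := {p | ‖p.1‖ = 1 ∧ 0 ≤ p.2.1 ∧ p.2.1 ≤ p.2.2 ∧
    ∀ x : R3, ‖x‖ ≤ 1 → sph p.1 p.2.1 p.2.2 x ∈ K}
  have hFc : IsClosed F := by
    simp only [F, setOf_and, setOf_forall]
    refine (isClosed_eq (by fun_prop) continuous_const).inter
      ((isClosed_le continuous_const (by fun_prop)).inter
      ((isClosed_le (by fun_prop) (by fun_prop)).inter
      (isClosed_biInter fun x _ => ?_)))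
    refine hc.isClosed.preimage ?_
    simp only [sph_apply]
    fun_prop
  have hFb : F ⊆ Metric.closedBall 0 1 ×ˢ Icc 0 R ×ˢ Icc 0 R := by
    rintro ⟨n, a, b⟩ ⟨hn, ha, hab, hmem⟩
    obtain ⟨v, hv, hnv, -⟩ := exists_third (a := n) (b := n)
    have hb : ‖sph n a b v‖ ≤ R := hR _ (hmem v hv.le)
    rw [sph_apply, hnv, mul_zero, zero_smul, add_zero, norm_smul, hv, mul_one, Real.norm_eq_abs,
      abs_of_nonneg (ha.trans hab)] at hb
    exact ⟨mem_closedBall_zero_iff.2 hn.le, ⟨ha, hab.trans hb⟩, ⟨ha.trans hab, hb⟩⟩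
  have hFk : IsCompact F :=
    ((isCompact_closedBall _ _).prod (isCompact_Icc.prod isCompact_Icc)).of_isClosed_subset hFc hFb
  obtain ⟨e, he, -, -⟩ := exists_third (a := (0 : R3)) (b := (0 : R3))
  have hmem0 : ((e, r / 2, r / 2) : R3 × ℝ × ℝ) ∈ F := by
    refine ⟨he, (half_pos hr).le, le_rfl, fun x hx => interior_subset (hball ?_)⟩
    rw [mem_ball_zero_iff, sph_apply, sub_self, zero_mul, zero_smul, add_zero, norm_smul,
      Real.norm_eq_abs, abs_of_pos (half_pos hr)]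
    nlinarith [norm_nonneg x]
  obtain ⟨⟨n, a, b⟩, ⟨hn, ha, hab, hmem⟩, hmax⟩ := hFk.exists_isMaxOn ⟨_, hmem0⟩
    (f := fun p : R3 × ℝ × ℝ => p.2.1 * p.2.2) (by fun_prop)
  have hpos : 0 < a * b :=
    lt_of_lt_of_le (mul_pos (half_pos hr) (half_pos hr)) (hmax hmem0)
  refine ⟨n, a, b, hn, ha.lt_of_ne fun h => ?_, hab, hmem, fun n' a' b' h1 h2 h3 h4 =>
    hmax (show ((n', a', b') : R3 × ℝ × ℝ) ∈ F from ⟨h1, h2, h3, h4⟩)⟩
  have h' : a = 0 := h.symm
  rw [h', zero_mul] at hpos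
  exact lt_irrefl _ hpos

/-- No first-order direction enlarges `a * b` while pulling all contacts inside. -/
theorem Best.no_gain {K : Set R3} (hc : IsCompact K) (hconv : Convex ℝ K)
    (h0 : (0 : R3) ∈ interior K) {n : R3} {a b : ℝ} (B : Best K n a b)
    {w : R3} (hw : ⟪n, w⟫ = 0) {A η : ℝ} (hη : 0 < η) (hA : a = b → A ≤ 0)
    (hδ : ∀ y ∈ polarSet K, phi n a b y = 0 →
      (η - A) * b ^ 2 * (‖y‖ ^ 2 - ⟪n, y⟫ ^ 2) + (A + η) * a ^ 2 * ⟪n, y⟫ ^ 2
        - (b ^ 2 - a ^ 2) * ⟪n, y⟫ * ⟪w, y⟫ < 0) : False := by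
  obtain ⟨hn, ha, hab, -, hmax⟩ := id B
  have hb : 0 < b := ha.trans_le hab
  set α := A + η with hα
  set β := η - A with hβ
  set W := ‖w‖ ^ 2 with hW
  set δ : R3 → ℝ := fun y => 2 * β * b ^ 2 * (‖y‖ ^ 2 - ⟪n, y⟫ ^ 2)
    + 2 * α * a ^ 2 * ⟪n, y⟫ ^ 2 - 2 * (b ^ 2 - a ^ 2) * ⟪n, y⟫ * ⟪w, y⟫ with hδdef
  set G : ℝ × R3 → ℝ := fun p =>
    β ^ 2 * b ^ 2 * ‖p.2‖ ^ 2
      + W * (b ^ 2 * ‖p.2‖ ^ 2 - 1 + 2 * p.1 * β * b ^ 2 * ‖p.2‖ ^ 2
          + p.1 ^ 2 * β ^ 2 * b ^ 2 * ‖p.2‖ ^ 2)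
      - (b ^ 2 - a ^ 2) * ⟪w, p.2⟫ ^ 2
      - 4 * (b ^ 2 * β - a ^ 2 * α) * ⟪n, p.2⟫ * ⟪w, p.2⟫
      - (b ^ 2 * β ^ 2 - a ^ 2 * α ^ 2) * ⟪n, p.2⟫ ^ 2
      - p.1 * (2 * (b ^ 2 * β - a ^ 2 * α) * ⟪w, p.2⟫ ^ 2
          + 2 * (b ^ 2 * β ^ 2 - a ^ 2 * α ^ 2) * ⟪n, p.2⟫ * ⟪w, p.2⟫)
      - p.1 ^ 2 * (b ^ 2 * β ^ 2 - a ^ 2 * α ^ 2) * ⟪w, p.2⟫ ^ 2 with hG
  have hY := isCompact_polarSet h0
  have hY0 : (0 : R3) ∈ polarSet K := fun x _ => by rw [inner_zero_left]; exact zero_le_one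
  -- uniform separation
  have hcm : Continuous fun y => max (-phi n a b y) (-δ y) := by
    simp only [hδdef, phi]; fun_prop
  obtain ⟨y0, hy0, hymin⟩ := hY.exists_isMinOn ⟨0, hY0⟩ hcm.continuousOn
  set m := max (-phi n a b y0) (-δ y0) with hm
  have hm0 : 0 < m := by
    rcases (B.phi_nonpos hy0).lt_or_eq with h | h
    · exact lt_max_of_lt_left (neg_pos.2 h)
    · refine lt_max_of_lt_right (neg_pos.2 ?_)
      have := hδ y0 hy0 h
      simp only [hδdef]; linarith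
  have hcG : Continuous G := by simp only [hG]; fun_prop
  obtain ⟨M, hM⟩ := (isCompact_Icc (a := (0 : ℝ)) (b := 1)).prod hY |>.bddAbove_image
    hcG.continuousOn
  have hcδ : Continuous δ := by simp only [hδdef]; fun_prop
  obtain ⟨L, hL⟩ := hY.bddAbove_image hcδ.continuousOn
  -- the step
  have hev : ∀ᶠ ε in 𝓝[>] (0 : ℝ), 0 < ε ∧ ε < 1 ∧ ε * |L| + ε ^ 2 * |M| < m ∧ ε * |M| < m
      ∧ -2 * η < ε * (α * β) ∧ -1 < ε * α ∧ (a = b ∨ a * (1 + ε * α) < b * (1 + ε * β)) := by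
    have key : ∀ {f : ℝ → ℝ} {c : ℝ}, Continuous f → f 0 < c →
        ∀ᶠ ε in 𝓝[>] (0 : ℝ), f ε < c :=
      fun hf h => ((hf.tendsto 0).eventually (eventually_lt_nhds h)).filter_mono
        nhdsWithin_le_nhds
    have key' : ∀ {f : ℝ → ℝ} {c : ℝ}, Continuous f → c < f 0 →
        ∀ᶠ ε in 𝓝[>] (0 : ℝ), c < f ε :=
      fun hf h => ((hf.tendsto 0).eventually (eventually_gt_nhds h)).filter_mono
        nhdsWithin_le_nhds
    refine eventually_nhdsWithin_of_forall (fun _ h => h) |>.and ?_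
    refine (key (f := fun ε => ε) continuous_id zero_lt_one).and ?_
    refine (key (f := fun ε => ε * |L| + ε ^ 2 * |M|) (by fun_prop) (by simpa using hm0)).and ?_
    refine (key (f := fun ε => ε * |M|) (by fun_prop) (by simpa using hm0)).and ?_
    refine (key' (f := fun ε => ε * (α * β)) (by fun_prop) (by simpa using hη)).and ?_
    refine (key' (f := fun ε => ε * α) (by fun_prop) (by simp)).and ?_
    rcases hab.lt_or_eq with h | h
    · have h' : (fun ε : ℝ => a * (1 + ε * α) - b * (1 + ε * β)) 0 < 0 := by simpa using h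
      exact (key (f := fun ε => a * (1 + ε * α) - b * (1 + ε * β)) (by fun_prop) h').mono fun ε hε => Or.inr (by linarith)
    · exact Eventually.of_forall fun _ => Or.inl h
  obtain ⟨ε, hε, hε1, hεL, hεM, hgain, hεα, hord⟩ := hev.exists
  set a' := a * (1 + ε * α) with ha'
  set b' := b * (1 + ε * β) with hb'
  set c := √(1 + ε ^ 2 * W) with hc'
  have hW0 : 0 < 1 + ε ^ 2 * W := by positivity
  have hcpos : 0 < c := sqrt_pos.2 hW0
  have ha'0 : 0 ≤ a' := mul_nonneg ha.le (by linarith)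
  have hab' : a' ≤ b' := by
    rcases hord with h | h
    · rw [ha', hb', ← h]
      refine mul_le_mul_of_nonneg_left ?_ ha.le
      have := mul_le_mul_of_nonneg_left (show α ≤ β by linarith [hA h]) hε.le
      linarith
    · exact h.le
  have hn' : ‖c⁻¹ • (n + ε • w)‖ = 1 := by
    have h1 : ‖n + ε • w‖ = c := by
      rw [hc', ← sqrt_sq (norm_nonneg (n + ε • w)), norm_add_sq_real, real_inner_smul_right, hw,
        norm_smul, hn, mul_pow, Real.norm_eq_abs, sq_abs]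
      simp [hW]
    rw [norm_smul, h1, norm_inv, Real.norm_eq_abs, abs_of_pos hcpos, inv_mul_cancel₀ hcpos.ne']
  have hbound : ∀ y ∈ polarSet K, phi n a b y + ε * δ y + ε ^ 2 * G (ε, y) ≤ 0 := by
    intro y hy
    have hG1 : G (ε, y) ≤ |M| :=
      (hM ⟨(ε, y), mk_mem_prod ⟨hε.le, hε1.le⟩ hy, rfl⟩).trans (le_abs_self _)
    have hd1 : δ y ≤ |L| := (hL ⟨y, hy, rfl⟩).trans (le_abs_self _)
    have hG2 := mul_le_mul_of_nonneg_left hG1 (sq_nonneg ε)
    have hmy : m ≤ max (-phi n a b y) (-δ y) := isMinOn_iff.1 hymin y hy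
    rcases le_max_iff.1 hmy with h | h
    · have := mul_le_mul_of_nonneg_left hd1 hε.le
      linarith
    · have h2 := mul_le_mul_of_nonneg_left h hε.le
      have h3 := B.phi_nonpos hy
      nlinarith
  have hmem' : ∀ y ∈ polarSet K, ‖sph (c⁻¹ • (n + ε • w)) a' b' y‖ ≤ 1 := by
    intro y hy
    refine (sq_le_one_iff₀ (norm_nonneg _)).1 ?_
    rw [norm_sph_sq hn', real_inner_smul_left, inner_add_left, real_inner_smul_left, mul_pow c⁻¹,
      inv_pow, hc', sq_sqrt hW0.le]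
    have hF : (b' ^ 2 * ‖y‖ ^ 2 - 1) * (1 + ε ^ 2 * W)
        - (b' ^ 2 - a' ^ 2) * (⟪n, y⟫ + ε * ⟪w, y⟫) ^ 2
        = phi n a b y + ε * δ y + ε ^ 2 * G (ε, y) := by
      simp only [ha', hb', phi, hδdef, hG]; ring
    have h := hbound y hy
    rw [← hF] at h
    have : (b' ^ 2 - a' ^ 2) * ((1 + ε ^ 2 * W)⁻¹ * (⟪n, y⟫ + ε * ⟪w, y⟫) ^ 2)
        = (b' ^ 2 - a' ^ 2) * (⟪n, y⟫ + ε * ⟪w, y⟫) ^ 2 / (1 + ε ^ 2 * W) := by ring
    rw [this, sub_le_iff_le_add, ← sub_le_iff_le_add', le_div_iff₀ hW0]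
    linarith
  have h := hmax _ a' b' hn' ha'0 hab'
    fun x hx => sph_mem_of_polar hc hconv (interior_subset h0) hmem' hx
  have e : a' * b' = a * b + a * b * ε * (2 * η + ε * (α * β)) := by
    rw [ha', hb', hα, hβ]; ring
  have : 0 < a * b * ε * (2 * η + ε * (α * β)) :=
    mul_pos (by positivity) (by linarith)
  linarith

theorem gram_ge {n : R3} (hn : ‖n‖ = 1) (y y' : R3) :
    ‖⟪n, y⟫ • y' - ⟪n, y'⟫ • y‖ ^ 2 ≤ ‖y‖ ^ 2 * ‖y'‖ ^ 2 - ⟪y, y'⟫ ^ 2 := by
  rcases eq_or_ne y 0 with rfl | hy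
  · simp
  have hP : 0 < ‖y‖ ^ 2 := pow_pos (norm_pos_iff.2 hy) 2
  set P := ‖y‖ ^ 2 with hPdef
  set z := ⟪n, y⟫ with hz
  set I := ⟪y, y'⟫ with hI
  have hcs := real_inner_mul_inner_self_le (P • n - z • y) (P • y' - I • y)
  simp only [inner_sub_left, inner_sub_right, real_inner_smul_left, real_inner_smul_right,
    real_inner_self_eq_norm_sq, norm_smul, Real.norm_eq_abs, mul_pow, sq_abs, hn, one_pow, mul_one,
    real_inner_comm n y, real_inner_comm y y'] at hcs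
  rw [← hPdef, ← hz, ← hI] at hcs
  have key : 0 ≤ P ^ 2 * P * (P * ‖y'‖ ^ 2 - I ^ 2 - z ^ 2 * ‖y'‖ ^ 2
      - ⟪n, y'⟫ ^ 2 * P + 2 * z * ⟪n, y'⟫ * I) := by linarith
  have key' := nonneg_of_mul_nonneg_right key (by positivity)
  rw [norm_sub_sq_real, norm_smul, norm_smul, real_inner_smul_left, real_inner_smul_right,
    real_inner_comm y y', ← hI, Real.norm_eq_abs, Real.norm_eq_abs, mul_pow, mul_pow, sq_abs,
    sq_abs, ← hPdef]
  nlinarith

theorem Best.contacts_oblate {K : Set R3} (hc : IsCompact K) (hconv : Convex ℝ K)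
    (h0 : (0 : R3) ∈ interior K) {n : R3} {a b : ℝ} (B : Best K n a b) (hab : a < b) :
    ∃ y ∈ polarSet K, ∃ y' ∈ polarSet K,
      1 ≤ 2 * (a * b) ^ 2 * (‖y‖ ^ 2 * ‖y'‖ ^ 2 - ⟪y, y'⟫ ^ 2) := by
  obtain ⟨hn, ha, -, -, -⟩ := id B
  have hb : 0 < b := ha.trans hab
  set C : Set R3 := {y | y ∈ polarSet K ∧ phi n a b y = 0} with hC
  have hCc : IsCompact C :=
    (isCompact_polarSet h0).inter_right (isClosed_eq (by unfold phi; fun_prop) continuous_const)
  set v : R3 → ℝ := fun y => a * ⟪n, y⟫ with hv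
  set ρ : R3 → R3 := fun y => b • (y - ⟪n, y⟫ • n) with hρ
  set Ψ : R3 → ℝ × R3 := fun y => (v y ^ 2 - ‖ρ y‖ ^ 2, v y • ρ y) with hΨ
  have hρn : ∀ y, ⟪n, ρ y⟫ = 0 := fun y => by
    simp [hρ, real_inner_smul_right, inner_sub_right, real_inner_self_eq_norm_sq, hn]
  have hρsq : ∀ y, ‖ρ y‖ ^ 2 = b ^ 2 * (‖y‖ ^ 2 - ⟪n, y⟫ ^ 2) := fun y => by
    simp only [hρ]
    rw [norm_smul, mul_pow, Real.norm_eq_abs, sq_abs, norm_sub_sq_real, norm_smul, hn,
      real_inner_smul_right, real_inner_comm n y, Real.norm_eq_abs, mul_one, sq_abs]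
    ring
  have hsum : ∀ y ∈ C, v y ^ 2 + ‖ρ y‖ ^ 2 = 1 := fun y hy => by
    have := hy.2
    rw [phi] at this
    rw [hρsq, hv]
    linarith
  by_cases h : (0 : ℝ × R3) ∈ closure (convexHull ℝ (Ψ '' C))
  · obtain ⟨s, hs⟩ : (convexHull ℝ (Ψ '' C)).Nonempty :=
      closure_nonempty_iff.1 ⟨0, h⟩
    have hCne : C.Nonempty := (convexHull_nonempty_iff.1 ⟨s, hs⟩).of_image
    set g : R3 × R3 → ℝ := fun p => ‖v p.1 • ρ p.2 - v p.2 • ρ p.1‖ ^ 2 with hg
    have hgc : Continuous g := by simp only [hg, hv, hρ]; fun_prop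
    obtain ⟨⟨y, y'⟩, ⟨hy, hy'⟩, hmax⟩ :=
      (hCc.prod hCc).exists_isMaxOn (hCne.prod hCne) hgc.continuousOn
    have hbig : 1 / 2 ≤ g (y, y') := by
      refine le_of_forall_pos_le_add fun δ hδ => ?_
      set e := min 1 (δ / 4) with he
      have he0 : 0 < e := lt_min one_pos (by linarith)
      obtain ⟨p, hp, hpd⟩ := Metric.mem_closure_iff.1 h e he0
      rw [dist_zero_left] at hpd
      obtain ⟨ι, _, c, z, hc0, hc1, hz, hzp⟩ := mem_convexHull_iff_exists_fintype.1 hp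
      choose yy hyy hyz using hz
      have hfst : ∑ i, c i * (v (yy i) ^ 2 - ‖ρ (yy i)‖ ^ 2) = p.1 := by
        rw [← hzp, Prod.fst_sum]
        simp [← hyz, hΨ]
      have hsnd : ∑ i, c i • (v (yy i) • ρ (yy i)) = p.2 := by
        rw [← hzp, Prod.snd_sum]
        simp [← hyz, hΨ]
      have hone : ∑ i, c i * (v (yy i) ^ 2 + ‖ρ (yy i)‖ ^ 2) = 1 := by
        simp [hsum _ (hyy _), hc1]
      have htot : ∑ i, ∑ j, c i * c j * g (yy i, yy j)
          = 2 * (∑ i, c i * v (yy i) ^ 2) * (∑ i, c i * ‖ρ (yy i)‖ ^ 2)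
            - 2 * ‖p.2‖ ^ 2 := by
        have hterm : ∀ i j, c i * c j * g (yy i, yy j)
            = c i * v (yy i) ^ 2 * (c j * ‖ρ (yy j)‖ ^ 2)
              + c i * ‖ρ (yy i)‖ ^ 2 * (c j * v (yy j) ^ 2)
              - 2 * ⟪c i • (v (yy i) • ρ (yy i)), c j • (v (yy j) • ρ (yy j))⟫ := fun i j => by
          simp only [hg]
          generalize ρ (yy i) = X
          generalize ρ (yy j) = Z
          rw [norm_sub_sq_real, norm_smul, norm_smul, real_inner_smul_left, real_inner_smul_left,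
            real_inner_smul_left, real_inner_smul_right, real_inner_smul_right,
            real_inner_smul_right, real_inner_comm X Z, mul_pow, mul_pow,
            Real.norm_eq_abs, Real.norm_eq_abs, sq_abs, sq_abs]
          ring
        rw [← real_inner_self_eq_norm_sq, ← hsnd]
        simp only [hterm, Finset.sum_sub_distrib, Finset.sum_add_distrib, ← Finset.mul_sum,
          ← Finset.sum_mul, ← inner_sum, ← sum_inner]
        ring
      have hle : ∑ i, ∑ j, c i * c j * g (yy i, yy j) ≤ g (y, y') := by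
        calc ∑ i, ∑ j, c i * c j * g (yy i, yy j)
            ≤ ∑ i, ∑ j, c i * c j * g (y, y') :=
              Finset.sum_le_sum fun i _ => Finset.sum_le_sum fun j _ =>
                mul_le_mul_of_nonneg_left (hmax (mk_mem_prod (hyy i) (hyy j)))
                  (mul_nonneg (hc0 i) (hc0 j))
          _ = g (y, y') := by simp [← Finset.sum_mul, ← Finset.mul_sum, hc1]
      simp only [mul_sub, Finset.sum_sub_distrib] at hfst
      simp only [mul_add, Finset.sum_add_distrib] at hone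
      have hp1 : |p.1| ≤ e := by
        have := norm_fst_le p
        rw [Real.norm_eq_abs] at this
        linarith
      have hp2 : ‖p.2‖ ≤ e := by linarith [norm_snd_le p]
      rw [htot] at hle
      have e1 : 2 * (∑ i, c i * v (yy i) ^ 2) * (∑ i, c i * ‖ρ (yy i)‖ ^ 2)
          = (1 - p.1 ^ 2) / 2 := by
        have hA : ∑ i, c i * v (yy i) ^ 2 = (1 + p.1) / 2 := by linarith
        have hB : ∑ i, c i * ‖ρ (yy i)‖ ^ 2 = (1 - p.1) / 2 := by linarith
        rw [hA, hB]; ring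
      have hee : e * e ≤ e := mul_le_of_le_one_left he0.le (min_le_left _ _)
      have h4 : e ≤ δ / 4 := min_le_right _ _
      have hq1 : p.1 ^ 2 ≤ e := by
        rw [← sq_abs]; nlinarith [abs_nonneg p.1]
      have hq2 : ‖p.2‖ ^ 2 ≤ e := by nlinarith [norm_nonneg p.2]
      linarith
    refine ⟨y, hy.1, y', hy'.1, ?_⟩
    have hgr := gram_ge hn y y'
    have : g (y, y') = (a * b) ^ 2 * ‖⟪n, y⟫ • y' - ⟪n, y'⟫ • y‖ ^ 2 := by
      simp only [hg, hv, hρ]
      rw [show (a * ⟪n, y⟫) • b • (y' - ⟪n, y'⟫ • n) - (a * ⟪n, y'⟫) • b • (y - ⟪n, y⟫ • n)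
          = (a * b) • (⟪n, y⟫ • y' - ⟪n, y'⟫ • y) by module,
        norm_smul, mul_pow, Real.norm_eq_abs, sq_abs]
    have := mul_le_mul_of_nonneg_left hgr (sq_nonneg (a * b))
    linarith
  · obtain ⟨f, σ, hfσ, hσ0⟩ :=
      geometric_hahn_banach_closed_point (convex_convexHull ℝ _).closure isClosed_closure h
    rw [map_zero] at hσ0
    set A := f (1, 0) with hA
    set c := (InnerProductSpace.toDual ℝ R3).symm (f.comp (ContinuousLinearMap.inr ℝ ℝ R3))
      with hc'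
    have hf : ∀ (s : ℝ) (x : R3), f (s, x) = s * A + ⟪c, x⟫ := fun s x => by
      rw [hc', InnerProductSpace.toDual_symm_apply, hA, ← smul_eq_mul, ← map_smul,
        ContinuousLinearMap.comp_apply, ← map_add]
      simp
    have hD : 0 < b ^ 2 - a ^ 2 := by nlinarith
    refine (B.no_gain hc hconv h0 (w := (-(a * b / (b ^ 2 - a ^ 2))) • (c - ⟪n, c⟫ • n))
      (A := A) (η := -σ / 2) ?_ (by linarith) (fun he => absurd he hab.ne) fun y hy hy0 => ?_).elim
    · rw [real_inner_smul_right, inner_sub_right, real_inner_smul_right,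
        real_inner_self_eq_norm_sq, hn]
      ring
    have hmem : Ψ y ∈ closure (convexHull ℝ (Ψ '' C)) :=
      subset_closure (subset_convexHull ℝ _ ⟨y, ⟨hy, hy0⟩, rfl⟩)
    have hlt := hfσ _ hmem
    simp only [hΨ] at hlt
    rw [hf, real_inner_smul_right] at hlt
    have hq : ⟪c, ρ y⟫ = b * (⟪c, y⟫ - ⟪n, y⟫ * ⟪c, n⟫) := by
      simp only [hρ, real_inner_smul_right, inner_sub_right]
    rw [hq, hρsq] at hlt
    simp only [hv] at hlt
    have hw' : (b ^ 2 - a ^ 2) * ⟪n, y⟫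
          * ⟪(-(a * b / (b ^ 2 - a ^ 2))) • (c - ⟪n, c⟫ • n), y⟫
        = -(a * b * ⟪n, y⟫ * (⟪c, y⟫ - ⟪n, y⟫ * ⟪c, n⟫)) := by
      rw [real_inner_smul_left, inner_sub_left, real_inner_smul_left, real_inner_comm n c]
      field_simp
    rw [hw']
    have h1 := hsum y ⟨hy, hy0⟩
    simp only [hv] at h1
    rw [hρsq] at h1
    nlinarith

theorem Best.contacts_ball {K : Set R3} (hc : IsCompact K) (hconv : Convex ℝ K)
    (h0 : (0 : R3) ∈ interior K) {n : R3} {a : ℝ} (B : Best K n a a) :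
    ∃ y ∈ polarSet K, ∃ y' ∈ polarSet K,
      1 ≤ 2 * (a * a) ^ 2 * (‖y‖ ^ 2 * ‖y'‖ ^ 2 - ⟪y, y'⟫ ^ 2) := by
  obtain ⟨hn, ha, -, hmem, hmax⟩ := id B
  by_contra hcon
  push Not at hcon
  set C : Set R3 := {y | y ∈ polarSet K ∧ phi n a a y = 0} with hC
  have hCc : IsCompact C :=
    (isCompact_polarSet h0).inter_right (isClosed_eq (by unfold phi; fun_prop) continuous_const)
  have hnorm : ∀ m y, phi m a a y = 0 → a ^ 2 * ‖y‖ ^ 2 = 1 := fun m y h => by
    rw [phi] at h; linarith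
  have hball : ∀ m : R3, ‖m‖ = 1 → Best K m a a := fun m hm =>
    ⟨hm, ha, le_rfl, fun x hx => by simpa [sph_apply] using hmem x hx, hmax⟩
  rcases C.eq_empty_or_nonempty with hCe | ⟨y0, hy0⟩
  · refine B.no_gain hc hconv h0 (w := 0) (inner_zero_right _) (A := -1) one_pos
      (fun _ => by norm_num) fun y hy hy' => absurd (show y ∈ C from ⟨hy, hy'⟩) ?_
    rw [hCe]; exact notMem_empty y
  set m := a • y0 with hm
  have hm1 : ‖m‖ = 1 := by
    refine (pow_eq_one_iff_of_nonneg (norm_nonneg _) two_ne_zero).1 ?_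
    rw [hm, norm_smul, mul_pow, Real.norm_eq_abs, sq_abs]
    exact hnorm n y0 hy0.2
  obtain ⟨y1, hy1, hmin⟩ := hCc.exists_isMinOn ⟨y0, hy0⟩
    (f := fun y => 2 * (a * ⟪m, y⟫) ^ 2 - 1) (by fun_prop)
  have hpos : ∀ y ∈ C, 0 < 2 * (a * ⟪m, y⟫) ^ 2 - 1 := fun y hy => by
    have h := hcon y0 hy0.1 y hy.1
    have e1 := hnorm n y0 hy0.2
    have e2 := hnorm n y hy.2
    rw [hm, real_inner_smul_left]
    have : 2 * (a * a) ^ 2 * (‖y0‖ ^ 2 * ‖y‖ ^ 2) = 2 := by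
      calc _ = 2 * (a ^ 2 * ‖y0‖ ^ 2) * (a ^ 2 * ‖y‖ ^ 2) := by ring
        _ = 2 := by rw [e1, e2]; ring
    nlinarith
  set η := (2 * (a * ⟪m, y1⟫) ^ 2 - 1) / 2 with hη
  have hη0 : 0 < η := half_pos (hpos y1 hy1)
  refine (hball m hm1).no_gain hc hconv h0 (w := 0) (inner_zero_right _) (A := -1) (η := η) hη0
    (fun _ => by norm_num) fun y hy hy' => ?_
  have e2 := hnorm m y hy'
  have hyC : y ∈ C := ⟨hy, by rw [phi, e2]; ring⟩
  have hge : 2 * η ≤ 2 * (a * ⟪m, y⟫) ^ 2 - 1 := by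
    have := hmin hyC
    simp only [mem_setOf_eq] at this
    rw [hη]; linarith
  nlinarith

/-- The spheroid maximising `a * b` and two well-spread contact normals. -/
theorem exists_spheroid_contacts {K : Set R3} (hc : IsCompact K) (hconv : Convex ℝ K)
    (hsymm : ∀ x ∈ K, -x ∈ K) (hint : (interior K).Nonempty) :
    ∃ (n : R3) (a b : ℝ), ‖n‖ = 1 ∧ 0 < a ∧ a ≤ b ∧ (∀ x : R3, ‖x‖ ≤ 1 → sph n a b x ∈ K) ∧
      ∃ y y' : R3, (∀ x ∈ K, |⟪y, x⟫| ≤ 1) ∧ (∀ x ∈ K, |⟪y', x⟫| ≤ 1) ∧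
        1 ≤ 2 * (a * b) ^ 2 * (‖y‖ ^ 2 * ‖y'‖ ^ 2 - ⟪y, y'⟫ ^ 2) := by
  have h0 := zero_mem_interior hconv hsymm hint
  obtain ⟨n, a, b, B⟩ := exists_best hc h0
  have habs : ∀ y ∈ polarSet K, ∀ x ∈ K, |⟪y, x⟫| ≤ 1 := fun y hy x hx => by
    have h1 := hy x hx
    have h2 := hy (-x) (hsymm x hx)
    rw [inner_neg_right] at h2
    exact abs_le.2 ⟨by linarith, h1⟩
  refine ⟨n, a, b, B.unit, B.pos, B.le, B.mem, ?_⟩
  rcases B.le.lt_or_eq with h | h
  · obtain ⟨y, hy, y', hy', hg⟩ := B.contacts_oblate hc hconv h0 h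
    exact ⟨y, y', habs y hy, habs y' hy', hg⟩
  · subst h
    obtain ⟨y, hy, y', hy', hg⟩ := B.contacts_ball hc hconv h0
    exact ⟨y, y', habs y hy, habs y' hy', hg⟩

end Vale.Agent.P243
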